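import Vale.Agent.P313.H947.Sharp2

/-!
Deterministic space for randomized logarithmic-space machines with very small success probability.
-/

namespace Vale.Agent.Results.P313.SmallSuccessSpace

open Vale.Agent.P313

/-- `L = log n` where `n` is the length of the input plus two. -/
noncomputable def L (n : ℕ) : ℝ := Real.logb 2 (n + 2)

/-- `l = loglog n`. -/
noncomputable def l (n : ℕ) : ℝ := Real.logb 2 (L n + 1)

/-- `R = L ^ (1/3) * l ^ (2/3)`. -/
noncomputable def R (n : ℕ) : ℝ := L n ^ ((1 : ℝ) / 3) * l n ^ ((2 : ℝ) / 3)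

/-- `m = log (lam + l + 1)`. -/
noncomputable def m (lam : ℕ → ℕ) (n : ℕ) : ℝ := Real.logb 2 (lam n + l n + 1)

/-- `Q = lam ^ (1/3) * m ^ (2/3) + (l * m) ^ (1/2)`. -/
noncomputable def Q (lam : ℕ → ℕ) (n : ℕ) : ℝ :=
  (lam n : ℝ) ^ ((1 : ℝ) / 3) * m lam n ^ ((2 : ℝ) / 3) + Real.sqrt (l n * m lam n)

/-- `A` is decided by a deterministic Turing machine in time `2 ^ (C * s)` and space `C * s`. -/
def InSpace (A : Set (List Bool)) (s : ℕ → ℝ) : Prop :=
  ∃ (D : RTM) (C : ℝ), D.Decides A (fun n => (2 : ℝ) ^ (C * s n)) (fun n => C * s n)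

theorem L_mul_R (n : ℕ) : Real.logb 2 ((n : ℝ) + 2) ^ ((4 : ℝ) / 3) *
    Real.logb 2 (Real.logb 2 ((n : ℝ) + 2) + 1) ^ ((2 : ℝ) / 3) = L n * R n :=
  H947.sp_eq n

theorem set_eq {A A' : Set (List Bool)} (h1 : ∀ x, x ∈ A → x ∈ A') (h2 : ∀ x, x ∉ A → x ∉ A') :
    A = A' := by
  ext x
  exact ⟨h1 x, fun h => by by_contra h3; exact h2 x h3 h⟩

theorem result :
    -- (1) acceptance probability at least `n ^ (- (a / r) 2 ^ κ)`, or less than
    -- `n ^ (- ((a + 1) / r) 2 ^ κ - b)`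
    (∀ (M : RTM) (c : ℕ), M.Bounded (fun n => (n + 2) ^ c) (fun n => c * Nat.log 2 (n + 2)) →
      ∃ b : ℕ, ∀ (κ : ℕ → ℕ), LogConstructible κ → ∀ (a r : ℕ), 1 ≤ r →
        ∃ A : Set (List Bool), InSpace A (fun n => L n * (R n + κ n)) ∧
          ∀ x : List Bool,
            (1 / ((x.length : ℚ) + 2) ^ (a * 2 ^ κ x.length) ≤
              M.probAt x true ((x.length + 2) ^ c) 0 M.init ^ r → x ∈ A) ∧
            (M.probAt x true ((x.length + 2) ^ c) 0 M.init ^ r <
              1 / ((x.length : ℚ) + 2) ^ ((a + 1) * 2 ^ κ x.length + r * b) → x ∉ A)) ∧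
    -- (2) at least `n ^ (- 2 ^ (e R))`, or less than `n ^ (- 2 ^ (d R))`
    (∀ (M : RTM) (c e : ℕ), M.Bounded (fun n => (n + 2) ^ c) (fun n => c * Nat.log 2 (n + 2)) →
        ∃ (A : Set (List Bool)) (d : ℝ), InSpace A (fun n => L n * R n) ∧
          ∀ x : List Bool,
            (((x.length : ℝ) + 2) ^ (-((2 : ℝ) ^ (e * R x.length))) ≤
              (M.probAt x true ((x.length + 2) ^ c) 0 M.init : ℝ) → x ∈ A) ∧
            ((M.probAt x true ((x.length + 2) ^ c) 0 M.init : ℝ) <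
              ((x.length : ℝ) + 2) ^ (-((2 : ℝ) ^ (d * R x.length))) → x ∉ A)) ∧
    -- (3) as (1), for machines which ask for at most `2 ^ lam` random bits
    (∀ (M : RTM) (c : ℕ), M.Bounded (fun n => (n + 2) ^ c) (fun n => c * Nat.log 2 (n + 2)) →
      ∃ b : ℕ, ∀ (κ lam : ℕ → ℕ), LogConstructible κ → LogConstructible lam →
        (∀ (x : List Bool) (v : Bool),
          M.probAt x v ((x.length + 2) ^ c) (2 ^ lam x.length + 1) M.init = 0) →
        ∀ (a r : ℕ), 1 ≤ r →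
        ∃ A : Set (List Bool), InSpace A (fun n => L n * (Q lam n + κ n)) ∧
          ∀ x : List Bool,
            (1 / ((x.length : ℚ) + 2) ^ (a * 2 ^ κ x.length) ≤
              M.probAt x true ((x.length + 2) ^ c) 0 M.init ^ r → x ∈ A) ∧
            (M.probAt x true ((x.length + 2) ^ c) 0 M.init ^ r <
              1 / ((x.length : ℚ) + 2) ^ ((a + 1) * 2 ^ κ x.length + r * b) → x ∉ A)) ∧
    -- (4) as (2), for machines which ask for at most `2 ^ lam` random bits
    (∀ (lam : ℕ → ℕ), LogConstructible lam →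
      ∀ (M : RTM) (c e : ℕ), M.Bounded (fun n => (n + 2) ^ c) (fun n => c * Nat.log 2 (n + 2)) →
        (∀ (x : List Bool) (v : Bool),
          M.probAt x v ((x.length + 2) ^ c) (2 ^ lam x.length + 1) M.init = 0) →
        ∃ (A : Set (List Bool)) (d : ℝ), InSpace A (fun n => L n * Q lam n) ∧
          ∀ x : List Bool,
            (((x.length : ℝ) + 2) ^ (-((2 : ℝ) ^ (e * Q lam x.length))) ≤
              (M.probAt x true ((x.length + 2) ^ c) 0 M.init : ℝ) → x ∈ A) ∧
            ((M.probAt x true ((x.length + 2) ^ c) 0 M.init : ℝ) <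
              ((x.length : ℝ) + 2) ^ (-((2 : ℝ) ^ (d * Q lam x.length))) → x ∉ A)) ∧
    -- (5) languages: the acceptance probabilities are never between the two bounds of (1)
    (∀ (M : RTM) (c : ℕ), M.Bounded (fun n => (n + 2) ^ c) (fun n => c * Nat.log 2 (n + 2)) →
      ∃ b : ℕ, ∀ (κ : ℕ → ℕ), LogConstructible κ → ∀ (a r : ℕ), 1 ≤ r →
      ∀ (A : Set (List Bool)),
        (∀ x : List Bool,
          (x ∈ A → 1 / ((x.length : ℚ) + 2) ^ (a * 2 ^ κ x.length) ≤
            M.probAt x true ((x.length + 2) ^ c) 0 M.init ^ r) ∧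
          (x ∉ A → M.probAt x true ((x.length + 2) ^ c) 0 M.init ^ r <
            1 / ((x.length : ℚ) + 2) ^ ((a + 1) * 2 ^ κ x.length + r * b))) →
        InSpace A (fun n => L n * (R n + κ n))) ∧
    -- (6) languages: the acceptance probabilities are never between the two bounds of (2)
    (∀ (M : RTM) (c e : ℕ), M.Bounded (fun n => (n + 2) ^ c) (fun n => c * Nat.log 2 (n + 2)) →
      ∃ d : ℝ, ∀ (A : Set (List Bool)),
        (∀ x : List Bool,
          (x ∈ A → ((x.length : ℝ) + 2) ^ (-((2 : ℝ) ^ (e * R x.length))) ≤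
            (M.probAt x true ((x.length + 2) ^ c) 0 M.init : ℝ)) ∧
          (x ∉ A → (M.probAt x true ((x.length + 2) ^ c) 0 M.init : ℝ) <
            ((x.length : ℝ) + 2) ^ (-((2 : ℝ) ^ (d * R x.length))))) →
        InSpace A (fun n => L n * R n)) := by
  have h1 : ∀ (M : RTM) (c : ℕ),
      M.Bounded (fun n => (n + 2) ^ c) (fun n => c * Nat.log 2 (n + 2)) →
      ∃ b : ℕ, ∀ (κ : ℕ → ℕ), LogConstructible κ → ∀ (a r : ℕ), 1 ≤ r →
        ∃ A : Set (List Bool), InSpace A (fun n => L n * (R n + κ n)) ∧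
          ∀ x : List Bool,
            (1 / ((x.length : ℚ) + 2) ^ (a * 2 ^ κ x.length) ≤
              M.probAt x true ((x.length + 2) ^ c) 0 M.init ^ r → x ∈ A) ∧
            (M.probAt x true ((x.length + 2) ^ c) 0 M.init ^ r <
              1 / ((x.length : ℚ) + 2) ^ ((a + 1) * 2 ^ κ x.length + r * b) → x ∉ A) := by
    intro M c hM
    obtain ⟨b, hb⟩ := H947.sharpK_all M c hM
    refine ⟨b, fun κ hκ a r hr => ?_⟩
    obtain ⟨A, D, C, hD, hA⟩ := hb κ (Sel.lfx_of_constructible hκ) a r hr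
    refine ⟨A, ⟨D, C, ?_⟩, hA⟩
    have e1 : ∀ n : ℕ, L n * (R n + κ n) = Real.logb 2 ((n : ℝ) + 2) ^ ((4 : ℝ) / 3) *
        Real.logb 2 (Real.logb 2 ((n : ℝ) + 2) + 1) ^ ((2 : ℝ) / 3) +
        κ n * Real.logb 2 ((n : ℝ) + 2) := by
      intro n
      rw [L_mul_R]
      unfold L
      ring
    simp only [e1]
    exact hD
  have h2 : ∀ (M : RTM) (c e : ℕ),
      M.Bounded (fun n => (n + 2) ^ c) (fun n => c * Nat.log 2 (n + 2)) →
        ∃ (A : Set (List Bool)) (d : ℝ), InSpace A (fun n => L n * R n) ∧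
          ∀ x : List Bool,
            (((x.length : ℝ) + 2) ^ (-((2 : ℝ) ^ (e * R x.length))) ≤
              (M.probAt x true ((x.length + 2) ^ c) 0 M.init : ℝ) → x ∈ A) ∧
            ((M.probAt x true ((x.length + 2) ^ c) 0 M.init : ℝ) <
              ((x.length : ℝ) + 2) ^ (-((2 : ℝ) ^ (d * R x.length))) → x ∉ A) := by
    intro M c e hM
    obtain ⟨A, D, C, d, hD, hA⟩ := H947.sepR_all M c e hM
    refine ⟨A, d, ⟨D, C, ?_⟩, hA⟩
    simp only [← L_mul_R]
    exact hD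
  refine ⟨h1, h2, ?_, ?_, ?_, ?_⟩
  · intro M c hM
    obtain ⟨b, hb⟩ := H947.sharpK_few M c hM
    refine ⟨b, fun κ lam hκ hlam hcoin a r hr => ?_⟩
    obtain ⟨A, D, C, hD, hA⟩ := hb κ lam (Sel.lfx_of_constructible hκ)
      (Sel.lfx_of_constructible hlam) hcoin a r hr
    exact ⟨A, ⟨D, C, hD⟩, hA⟩
  · intro lam hlam M c e hM hcoin
    obtain ⟨A, D, e', d, -, hD, hA⟩ := H947.sepR_few (Sel.lfx_of_constructible hlam) M c e hM hcoin
    refine ⟨A, d, ⟨D, 2 * e' * 1, ?_⟩, hA⟩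
    exact ZL.decides_clean (S' := H427L.spl (fun n => (lam n : ℝ))) hD
      (fun n => H427L.one_le_spl n (Nat.cast_nonneg _)) (C := 1) (fun n => by rw [one_mul])
  · intro M c hM
    obtain ⟨b, hb⟩ := h1 M c hM
    refine ⟨b, fun κ hκ a r hr A hA => ?_⟩
    obtain ⟨A', hD, h⟩ := hb κ hκ a r hr
    have e1 : A = A' := set_eq (fun x hx => (h x).1 ((hA x).1 hx))
      (fun x hx => (h x).2 ((hA x).2 hx))
    rw [e1]
    exact hD
  · intro M c e hM
    obtain ⟨A', d, hD, h⟩ := h2 M c e hM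
    refine ⟨d, fun A hA => ?_⟩
    have e1 : A = A' := set_eq (fun x hx => (h x).1 ((hA x).1 hx))
      (fun x hx => (h x).2 ((hA x).2 hx))
    rw [e1]
    exact hD

end Vale.Agent.Results.P313.SmallSuccessSpace
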