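import Vale.Agent.P313.H427L.Fin4

namespace Vale.Agent.Results.P313.SpaceFourThirds

open Vale.Agent.P313

/-- Deterministic space for `BPL` and for randomized machines with few random bits. -/
theorem result :
    -- `BPL` is contained in deterministic space `log ^ (4/3) n * (loglog n) ^ (2/3)`
    (∀ A : Set (List Bool), BPL A → ∃ (D : RTM) (e : ℝ),
      D.Decides A
        (fun n => (2 : ℝ) ^ (e * (Real.logb 2 (n + 2) ^ ((4 : ℝ) / 3) *
          Real.logb 2 (Real.logb 2 (n + 2) + 1) ^ ((2 : ℝ) / 3))))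
        (fun n => e * (Real.logb 2 (n + 2) ^ ((4 : ℝ) / 3) *
          Real.logb 2 (Real.logb 2 (n + 2) + 1) ^ ((2 : ℝ) / 3)))) ∧
    -- the same bounds for every threshold `a / b` and polynomially small gaps
    (∀ (k a b : ℕ), 0 < b → ∀ (M : RTM) (c : ℕ),
      M.Bounded (fun n => (n + 2) ^ c) (fun n => c * Nat.log 2 (n + 2)) →
      ∃ (A : Set (List Bool)) (D : RTM) (e : ℝ),
        D.Decides A
          (fun n => (2 : ℝ) ^ (e * (Real.logb 2 (n + 2) ^ ((4 : ℝ) / 3) *
            Real.logb 2 (Real.logb 2 (n + 2) + 1) ^ ((2 : ℝ) / 3))))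
          (fun n => e * (Real.logb 2 (n + 2) ^ ((4 : ℝ) / 3) *
            Real.logb 2 (Real.logb 2 (n + 2) + 1) ^ ((2 : ℝ) / 3))) ∧
        ∀ x : List Bool,
          ((a : ℚ) / b + 1 / (x.length + 2) ^ k ≤
            M.probAt x true ((x.length + 2) ^ c) 0 M.init → x ∈ A) ∧
          (M.probAt x true ((x.length + 2) ^ c) 0 M.init ≤ (a : ℚ) / b - 1 / (x.length + 2) ^ k →
            x ∉ A)) ∧
    -- machines which ask for at most `2 ^ lam` random bits, gap `2 ^ (-g)`
    (∀ (lam g : ℕ → ℕ) (k a b : ℕ), LogConstructible lam → LogConstructible g →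
      (∀ n, g n ≤ k * Nat.log 2 (n + 2)) → 0 < b → ∀ (M : RTM) (c : ℕ),
      M.Bounded (fun n => (n + 2) ^ c) (fun n => c * Nat.log 2 (n + 2)) →
      (∀ (x : List Bool) (v : Bool),
        M.probAt x v ((x.length + 2) ^ c) (2 ^ lam x.length + 1) M.init = 0) →
      ∃ (A : Set (List Bool)) (D : RTM) (e : ℝ),
        D.Decides A
          (fun n => (2 : ℝ) ^ (e * (Real.logb 2 (n + 2) * (((lam n : ℝ) + g n) ^ ((1 : ℝ) / 3) *
            Real.logb 2 ((lam n : ℝ) + g n + Real.logb 2 (Real.logb 2 (n + 2) + 1) + 1) ^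
              ((2 : ℝ) / 3) +
            Real.sqrt (Real.logb 2 (Real.logb 2 (n + 2) + 1) *
              Real.logb 2 ((lam n : ℝ) + g n + Real.logb 2 (Real.logb 2 (n + 2) + 1) + 1))))))
          (fun n => e * (Real.logb 2 (n + 2) * (((lam n : ℝ) + g n) ^ ((1 : ℝ) / 3) *
            Real.logb 2 ((lam n : ℝ) + g n + Real.logb 2 (Real.logb 2 (n + 2) + 1) + 1) ^
              ((2 : ℝ) / 3) +
            Real.sqrt (Real.logb 2 (Real.logb 2 (n + 2) + 1) *
              Real.logb 2 ((lam n : ℝ) + g n + Real.logb 2 (Real.logb 2 (n + 2) + 1) + 1))))) ∧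
        ∀ x : List Bool,
          ((a : ℚ) / b + 1 / 2 ^ g x.length ≤ M.probAt x true ((x.length + 2) ^ c) 0 M.init →
            x ∈ A) ∧
          (M.probAt x true ((x.length + 2) ^ c) 0 M.init ≤ (a : ℚ) / b - 1 / 2 ^ g x.length →
            x ∉ A)) := by
  refine ⟨?_, fun k a b hb M c hM => ZL.all_coins k hb hM,
    fun lam g k a b hlam hg hgk hb M c hM hcoin => ZL.few_coins hlam hg hgk hb hM hcoin⟩
  rintro A ⟨M, c, hM, hP⟩
  obtain ⟨A', D, e, hD, hA⟩ := ZL.all_coins 3 (a := 1) (b := 2) (by norm_num) hM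
  have hgap : ∀ x : List Bool, (1 : ℚ) / (x.length + 2) ^ 3 ≤ 1 / 8 := by
    intro x
    apply one_div_le_one_div_of_le (by norm_num)
    have h1 : (2 : ℚ) ≤ (x.length : ℚ) + 2 := by
      have : (0 : ℚ) ≤ x.length := Nat.cast_nonneg _
      linarith
    calc (8 : ℚ) = 2 ^ 3 := by norm_num
      _ ≤ ((x.length : ℚ) + 2) ^ 3 := pow_le_pow_left₀ (by norm_num) h1 3
  have e : A = A' := by
    ext x
    have h2 := hgap x
    constructor
    · intro hx
      refine (hA x).1 (le_trans ?_ ((hP x).1 hx))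
      push_cast
      linarith
    · intro hx
      by_contra hx2
      refine (hA x).2 (le_trans ((hP x).2 hx2) ?_) hx
      push_cast
      linarith
  rw [e]
  exact ⟨D, _, hD⟩

end Vale.Agent.Results.P313.SpaceFourThirds
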